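import Vale.Agent.P216.Ch2.Ns
import Vale.Agent.P216.MV337.Track
import Vale.Agent.P216.MV337.Cpt
import Vale.Agent.P216.Ch2.H901.Sp

/-!
# P216-B, block [MV], geometry: the trivialisations of the free loops (`H901.Triv`)
-/

set_option linter.all false

namespace Vale.Agent.P216.Ch2.MV337

open Vale.Agent.P216.MV337

open Set Filter Topology BoundedContinuousFunction
open Vale.Agent.P216.PS
open Vale.Agent.P216.AS (IsMap IsHtpy)
open Vale.Agent.P216.Ch2.H901 (Hp SpIntl Cu cub bdc ovr tr)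

/-! ### Continuous homotopies on compact sets -/

section hp

variable {E E' : Type} [PseudoMetricSpace E] [PseudoMetricSpace E'] {A A' : Set E} {B B' : Set E'}

theorem hp_of_cont (hA : IsCompact A) {F : ℝ × E → E'} (hF : ContinuousOn F (Icc (0:ℝ) 1 ×ˢ A))
    (hm : ∀ s ∈ Icc (0:ℝ) 1, ∀ x ∈ A, F (s, x) ∈ B) (hm' : ∀ s ∈ Icc (0:ℝ) 1, ∀ x ∈ A', F (s, x) ∈ B')
    {f g : E → E'} (h0 : ∀ x ∈ A, F (0, x) = f x) (h1 : ∀ x ∈ A, F (1, x) = g x) :
    Hp A A' B B' f g :=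
  ⟨fun s x => F (s, x), IsHtpy.of_continuousOn hA hF (fun s hs x hx => hm s hs x hx)
    fun _ _ i => i.elim, fun s hs x hx => hm' s hs x hx, h0, h1⟩

theorem map_of_cont (hA : IsCompact A) {f : E → E'} (hf : ContinuousOn f A)
    (hm : ∀ x ∈ A, f x ∈ B) : IsMap (tr E) (tr E') A B f :=
  IsMap.of_continuousOn hA hf (fun x hx => hm x hx) fun i => i.elim

/-- concatenation of two homotopies -/
noncomputable def cc (F G : ℝ × E → E') (p : ℝ × E) : E' :=
  if 2 * p.1 ≤ 1 then F (min 1 (2 * p.1), p.2) else G (max 0 (2 * p.1 - 1), p.2)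

theorem cc_cont {F G : ℝ × E → E'} (hF : ContinuousOn F (Icc (0:ℝ) 1 ×ˢ A))
    (hG : ContinuousOn G (Icc (0:ℝ) 1 ×ˢ A)) (h : ∀ x ∈ A, F (1, x) = G (0, x)) :
    ContinuousOn (cc F G) (Icc (0:ℝ) 1 ×ˢ A) := by
  unfold cc
  refine PS.ContinuousOn.if_le' ?_ ?_ (by fun_prop) (by fun_prop) fun p hp he => ?_
  · refine hF.comp (by fun_prop) fun p hp => ⟨⟨le_min zero_le_one (by linarith [hp.1.1]), min_le_left _ _⟩, hp.2⟩
  · refine hG.comp (by fun_prop) fun p hp => ⟨⟨le_max_left _ _, max_le zero_le_one (by linarith [hp.1.2])⟩, hp.2⟩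
  · rw [he, min_self, sub_self, max_self]
    exact h _ hp.2

theorem cc_mem {F G : ℝ × E → E'} {x : E} {B : Set E'} (hF : ∀ s ∈ Icc (0:ℝ) 1, F (s, x) ∈ B)
    (hG : ∀ s ∈ Icc (0:ℝ) 1, G (s, x) ∈ B) {s : ℝ} (hs : s ∈ Icc (0:ℝ) 1) : cc F G (s, x) ∈ B := by
  unfold cc
  split_ifs
  · exact hF _ ⟨le_min zero_le_one (by linarith [hs.1]), min_le_left _ _⟩
  · exact hG _ ⟨le_max_left _ _, max_le zero_le_one (by linarith [hs.2])⟩

theorem cc_zero {F G : ℝ × E → E'} (x : E) : cc F G (0, x) = F (0, x) := by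
  unfold cc
  simp only [mul_zero]
  rw [if_pos zero_le_one, min_eq_right zero_le_one]

theorem cc_one {F G : ℝ × E → E'} (x : E) : cc F G (1, x) = G (1, x) := by
  unfold cc
  simp only [mul_one]
  rw [if_neg (by norm_num)]
  congr 2
  norm_num

end hp

/-! ### Coordinates on `Cu` -/

section Cu

variable {E : Type} [MetricSpace E]

/-- the point of `Cu E n` with coordinates `y` -/
def enc : ∀ (n : ℕ), E → (Fin n → ℝ) → Cu E n
  | 0, e, _ => e
  | n + 1, e, y => (enc n e (Fin.init y), y (Fin.last n))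

/-- base point -/
def dec1 : ∀ (n : ℕ), Cu E n → E
  | 0, z => z
  | n + 1, z => dec1 n z.1

/-- coordinates -/
def dec2 : ∀ (n : ℕ), Cu E n → Fin n → ℝ
  | 0, _ => Fin.elim0
  | n + 1, z => Fin.snoc (dec2 n z.1) z.2

omit [MetricSpace E] in
theorem dec1_enc (n : ℕ) (e : E) (y : Fin n → ℝ) : dec1 n (enc n e y) = e := by
  induction n with
  | zero => rfl
  | succ n ih => exact ih _

omit [MetricSpace E] in
theorem dec2_enc (n : ℕ) (e : E) (y : Fin n → ℝ) : dec2 n (enc n e y) = y := by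
  induction n with
  | zero => exact Subsingleton.elim _ _
  | succ n ih =>
    show Fin.snoc (dec2 n (enc n e (Fin.init y))) (y (Fin.last n)) = y
    rw [ih]
    exact Fin.snoc_init_self y

omit [MetricSpace E] in
theorem enc_dec (n : ℕ) (z : Cu E n) : enc n (dec1 n z) (dec2 n z) = z := by
  induction n with
  | zero => rfl
  | succ n ih =>
    show (enc n (dec1 n z.1) (Fin.init (Fin.snoc (dec2 n z.1) z.2 : Fin (n + 1) → ℝ)),
      (Fin.snoc (dec2 n z.1) z.2 : Fin (n + 1) → ℝ) (Fin.last n)) = z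
    rw [Fin.init_snoc, Fin.snoc_last, ih]
    rfl

theorem enc_cont {S : Type*} [TopologicalSpace S] {A : Set S} (n : ℕ) {e : S → E}
    {y : S → Fin n → ℝ} (he : ContinuousOn e A) (hy : ContinuousOn y A) :
    ContinuousOn (fun s => enc n (e s) (y s)) A := by
  induction n with
  | zero => exact he
  | succ n ih =>
    refine ContinuousOn.prodMk (ih (y := fun s => Fin.init (y s)) ?_) ?_
    · rw [continuousOn_pi] at hy ⊢
      exact fun i => hy _
    · rw [continuousOn_pi] at hy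
      exact hy _

theorem dec1_cont (n : ℕ) : Continuous (dec1 n : Cu E n → E) := by
  induction n with
  | zero => exact continuous_id
  | succ n ih => exact ih.comp continuous_fst

theorem dec2_cont (n : ℕ) : Continuous (dec2 n : Cu E n → Fin n → ℝ) := by
  induction n with
  | zero => exact continuous_of_const fun _ _ => Subsingleton.elim _ _
  | succ n ih =>
    rw [continuous_pi_iff]
    intro i
    refine Fin.lastCases ?_ (fun i => ?_) i
    · have e : (fun z : Cu E (n + 1) => dec2 (n + 1) z (Fin.last n)) = fun z => z.2 := by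
        funext z
        exact Fin.snoc_last _ _
      rw [e]
      exact continuous_snd
    · have e : (fun z : Cu E (n + 1) => dec2 (n + 1) z i.castSucc) = fun z => dec2 n z.1 i := by
        funext z
        exact Fin.snoc_castSucc (α := fun _ => ℝ) _ _ _
      rw [e]
      exact (continuous_apply i).comp (ih.comp continuous_fst)

omit [MetricSpace E] in
theorem mem_cub (n : ℕ) {Z : Set E} {z : Cu E n} :
    z ∈ cub n Z ↔ dec1 n z ∈ Z ∧ ∀ i, dec2 n z i ∈ Icc (0:ℝ) 1 := by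
  induction n with
  | zero => exact ⟨fun h => ⟨h, fun i => i.elim0⟩, fun h => h.1⟩
  | succ n ih =>
    show z.1 ∈ cub n Z ∧ z.2 ∈ Icc (0:ℝ) 1 ↔ dec1 n z.1 ∈ Z ∧
      ∀ i, (Fin.snoc (dec2 n z.1) z.2 : Fin (n + 1) → ℝ) i ∈ Icc (0:ℝ) 1
    rw [ih]
    constructor
    · rintro ⟨⟨h1, h2⟩, h3⟩
      refine ⟨h1, fun i => ?_⟩
      refine Fin.lastCases ?_ (fun i => ?_) i
      · rw [Fin.snoc_last]; exact h3
      · rw [Fin.snoc_castSucc]; exact h2 i
    · rintro ⟨h1, h2⟩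
      refine ⟨⟨h1, fun i => ?_⟩, ?_⟩
      · have := h2 i.castSucc
        rwa [Fin.snoc_castSucc] at this
      · have := h2 (Fin.last n)
        rwa [Fin.snoc_last] at this

omit [MetricSpace E] in
theorem mem_bdc (n : ℕ) {Z : Set E} {z : Cu E n} :
    z ∈ bdc n Z ↔ z ∈ cub n Z ∧ ∃ i, dec2 n z i = 0 ∨ dec2 n z i = 1 := by
  induction n with
  | zero => exact ⟨fun h => h.elim, fun h => h.2.elim fun i _ => i.elim0⟩
  | succ n ih =>
    have e : z ∈ bdc (n + 1) Z ↔ (z.1 ∈ cub n Z ∧ z.2 ∈ ({0, 1} : Set ℝ)) ∨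
      (z.1 ∈ bdc n Z ∧ z.2 ∈ Icc (0:ℝ) 1) := Iff.rfl
    have e2 : z ∈ cub (n + 1) Z ↔ z.1 ∈ cub n Z ∧ z.2 ∈ Icc (0:ℝ) 1 := Iff.rfl
    have e3 : (∃ i, dec2 (n + 1) z i = 0 ∨ dec2 (n + 1) z i = 1) ↔
        (z.2 = 0 ∨ z.2 = 1) ∨ ∃ i, dec2 n z.1 i = 0 ∨ dec2 n z.1 i = 1 := by
      have e4 : dec2 (n + 1) z = (Fin.snoc (dec2 n z.1) z.2 : Fin (n + 1) → ℝ) := rfl
      rw [e4]
      constructor
      · rintro ⟨i, hi⟩
        revert hi
        refine Fin.lastCases ?_ (fun i => ?_) i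
        · intro hi
          rw [Fin.snoc_last] at hi
          exact Or.inl hi
        · intro hi
          rw [Fin.snoc_castSucc] at hi
          exact Or.inr ⟨i, hi⟩
      · rintro (h | ⟨i, hi⟩)
        · exact ⟨Fin.last n, by rw [Fin.snoc_last]; exact h⟩
        · exact ⟨i.castSucc, by rw [Fin.snoc_castSucc]; exact hi⟩
    rw [e, e2, e3, ih]
    constructor
    · rintro (⟨h1, h2⟩ | ⟨⟨h1, h2⟩, h3⟩)
      · rcases h2 with h2 | h2
        · exact ⟨⟨h1, by rw [h2]; exact ⟨le_rfl, zero_le_one⟩⟩, Or.inl (Or.inl h2)⟩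
        · exact ⟨⟨h1, by rw [h2]; exact ⟨zero_le_one, le_rfl⟩⟩, Or.inl (Or.inr h2)⟩
      · exact ⟨⟨h1, h3⟩, Or.inr h2⟩
    · rintro ⟨⟨h1, h2⟩, h3 | h3⟩
      · exact Or.inl ⟨h1, h3⟩
      · exact Or.inr ⟨⟨h1, h3⟩, h2⟩

theorem isCompact_cub (n : ℕ) {Z : Set E} (hZ : IsCompact Z) : IsCompact (cub n Z) := by
  induction n with
  | zero => exact hZ
  | succ n ih => exact ih.prod isCompact_Icc

end Cu

end Vale.Agent.P216.Ch2.MV337
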